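import Mathlib

/-!
P022-L3, chapter F: trace identities. A function `t` on a group with values in a commutative ring
with `t 1 = 2`, `t (g h) = t (h g)`, `t g * t h = t (g h) + d h * t (g h⁻¹)` takes values in the
subring generated by the seven traces of three generators and their determinants.
-/

namespace Vale.Agent.P022.H346

open Pointwise

/-- a two-dimensional trace function `t` with determinant `d` -/
structure TF {G R : Type*} [Group G] [CommRing R] (t : G → R) (d : G →* Rˣ) : Prop where
  one : t 1 = 2
  comm : ∀ g h, t (g * h) = t (h * g)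
  mul : ∀ g h, t g * t h = t (g * h) + (d h : R) * t (g * h⁻¹)

namespace TF

variable {G R : Type*} [Group G] [CommRing R] {t : G → R} {d : G →* Rˣ}

theorem inv (T : TF t d) (h : G) : (d h : R) * t h⁻¹ = t h := by
  have e := T.mul 1 h
  rw [T.one, one_mul, one_mul] at e
  linear_combination -e

/-- Cayley-Hamilton -/
theorem sq (T : TF t d) (u g v : G) :
    t (u * g * g * v) = t g * t (u * g * v) - (d g : R) * t (u * v) := by
  have e := T.mul (v * u * g) g
  have e1 : t (u * g * g * v) = t (v * u * g * g) := by
    rw [T.comm (u * g * g) v]; congr 1; group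
  have e2 : t (u * g * v) = t (v * u * g) := by
    rw [T.comm (u * g) v]; congr 1; group
  have e3 : t (u * v) = t (v * u * g * g⁻¹) := by
    rw [T.comm u v]; congr 1; group
  rw [e1, e2, e3]
  linear_combination -e

/-- the inverse of an element -/
theorem inv_mid (T : TF t d) (u g v : G) :
    (d g : R) * t (u * g⁻¹ * v) = t g * t (u * v) - t (u * g * v) := by
  have e := T.mul (v * u) g
  have e1 : t (u * g⁻¹ * v) = t (v * u * g⁻¹) := by
    rw [T.comm (u * g⁻¹) v]; congr 1; group
  have e2 : t (u * g * v) = t (v * u * g) := by
    rw [T.comm (u * g) v]; congr 1; group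
  have e3 : t (u * v) = t (v * u) := T.comm u v
  rw [e1, e2, e3]
  linear_combination -e

/-- polarized Cayley-Hamilton -/
theorem swap (T : TF t d) (u g h v : G) :
    t (u * h * g * v) = -t (u * g * h * v) + t g * t (u * h * v) + t h * t (u * g * v) +
      (t (g * h) - t g * t h) * t (u * v) := by
  have h1 := T.inv_mid u g (h * v)
  have h2 := T.inv_mid u h (g * v)
  have h3 := T.mul g h
  have h4 := T.mul (v * u) (h⁻¹ * g)
  have e0 : t (u * g * (h * v)) = t (u * g * h * v) := by congr 1; group
  have e1 : t (u * h * (g * v)) = t (u * h * g * v) := by congr 1; group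
  have e2 : t (u * (h * v)) = t (u * h * v) := by congr 1; group
  have e3 : t (u * (g * v)) = t (u * g * v) := by congr 1; group
  have e4 : t (h⁻¹ * g) = t (g * h⁻¹) := T.comm _ _
  have e5 : t (v * u * (h⁻¹ * g)) = t (u * h⁻¹ * (g * v)) := by
    rw [show v * u * (h⁻¹ * g) = v * (u * h⁻¹ * g) by group, T.comm v]; congr 1; group
  have e6 : t (v * u * (h⁻¹ * g)⁻¹) = t (u * g⁻¹ * (h * v)) := by
    rw [show v * u * (h⁻¹ * g)⁻¹ = v * (u * g⁻¹ * h) by group, T.comm v]; congr 1; group
  have e7 : t (v * u) = t (u * v) := T.comm _ _
  have e8 : (d h : R) * (d (h⁻¹ * g) : R) = d g := by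
    rw [← Units.val_mul, ← map_mul]; congr 2; group
  rw [e4, e5, e6, e7] at h4
  rw [e0, e2] at h1
  rw [e1, e3] at h2
  linear_combination h1 + h2 + t (u * v) * h3 + (d h : R) * h4 +
    t (u * g⁻¹ * (h * v)) * e8

end TF

section

variable {G R : Type*} [Group G] [CommRing R]

/-- the function `k ↦ t (g k)` -/
def ta (t : G → R) (g : G) : G → R := fun k => t (g * k)

/-- right multiplication -/
def rt (S : Subring R) (x : G) : (G → R) →ₗ[S] (G → R) where
  toFun f := fun k => f (x * k)
  map_add' _ _ := rfl
  map_smul' _ _ := rfl

theorem rt_ta (S : Subring R) (t : G → R) (x g : G) : rt S x (ta t g) = ta t (g * x) := by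
  funext k
  change t (g * (x * k)) = t (g * x * k)
  rw [mul_assoc]

variable {t : G → R} {d : G →* Rˣ}

theorem mem_sq (T : TF t d) {S : Subring R} {M : Submodule S (G → R)} {g : G} (ht : t g ∈ S)
    (hd : (d g : R) ∈ S) (u v : G) (h1 : ta t (u * g * v) ∈ M) (h0 : ta t (u * v) ∈ M) :
    ta t (u * g * g * v) ∈ M := by
  have e : ta t (u * g * g * v) = (⟨t g, ht⟩ : S) • ta t (u * g * v) -
      (⟨(d g : R), hd⟩ : S) • ta t (u * v) := by
    funext k
    have := T.sq u g (v * k)
    simp only [← mul_assoc] at this
    exact this
  rw [e]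
  exact M.sub_mem (M.smul_mem _ h1) (M.smul_mem _ h0)

theorem mem_swap (T : TF t d) {S : Subring R} {M : Submodule S (G → R)} {g h : G} (hg : t g ∈ S)
    (hh : t h ∈ S) (hgh : t (g * h) ∈ S) (u v : G) (h2 : ta t (u * g * h * v) ∈ M)
    (h1 : ta t (u * h * v) ∈ M) (h1' : ta t (u * g * v) ∈ M) (h0 : ta t (u * v) ∈ M) :
    ta t (u * h * g * v) ∈ M := by
  have e : ta t (u * h * g * v) = -ta t (u * g * h * v) + (⟨t g, hg⟩ : S) • ta t (u * h * v) +
      (⟨t h, hh⟩ : S) • ta t (u * g * v) +
      (⟨t (g * h), hgh⟩ - ⟨t g, hg⟩ * ⟨t h, hh⟩ : S) • ta t (u * v) := by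
    funext k
    have := T.swap u g h (v * k)
    simp only [← mul_assoc] at this
    exact this
  rw [e]
  exact M.add_mem (M.add_mem (M.add_mem (M.neg_mem h2) (M.smul_mem _ h1)) (M.smul_mem _ h1'))
    (M.smul_mem _ h0)

/-- the eight products -/
def e8 (a b c : G) : Fin 8 → G := ![1, a, b, c, a * b, a * c, b * c, a * b * c]

/-- the span of the eight functions -/
def sp (S : Subring R) (t : G → R) (a b c : G) : Submodule S (G → R) :=
  Submodule.span S (Set.range fun i => ta t (e8 a b c i))

theorem sp_mem (S : Subring R) (t : G → R) (a b c : G) (i : Fin 8) :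
    ta t (e8 a b c i) ∈ sp S t a b c := Submodule.subset_span ⟨i, rfl⟩

theorem sp_le {S : Subring R} {t : G → R} {a b c x : G}
    (h : ∀ i, ta t (e8 a b c i * x) ∈ sp S t a b c) :
    sp S t a b c ≤ (sp S t a b c).comap (rt S x) := by
  refine Submodule.span_le.2 ?_
  rintro _ ⟨i, rfl⟩
  change rt S x (ta t (e8 a b c i)) ∈ sp S t a b c
  rw [rt_ta]
  exact h i

theorem inv_le (T : TF t d) {S : Subring R} {a b c x : G} (ht : t x ∈ S)
    (hd : (((d x)⁻¹ : Rˣ) : R) ∈ S) (h : sp S t a b c ≤ (sp S t a b c).comap (rt S x)) :
    sp S t a b c ≤ (sp S t a b c).comap (rt S x⁻¹) := by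
  refine sp_le fun i => ?_
  have h1 : ta t (e8 a b c i * x) ∈ sp S t a b c := by
    have := h (sp_mem S t a b c i)
    change rt S x (ta t (e8 a b c i)) ∈ sp S t a b c at this
    rwa [rt_ta] at this
  have e : ta t (e8 a b c i * x⁻¹) = (⟨_, hd⟩ : S) • ((⟨t x, ht⟩ : S) • ta t (e8 a b c i) -
      ta t (e8 a b c i * x)) := by
    funext k
    have := T.inv_mid (e8 a b c i) x k
    change t (e8 a b c i * x⁻¹ * k) = (((d x)⁻¹ : Rˣ) : R) * (t x * t (e8 a b c i * k) -
      t (e8 a b c i * x * k))
    rw [← this, ← mul_assoc, Units.inv_mul, one_mul]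
  rw [e]
  exact Submodule.smul_mem _ _ (Submodule.sub_mem _ (Submodule.smul_mem _ _ (sp_mem S t a b c i))
    h1)

/-- **values of a trace function on a group generated by three elements** -/
theorem mem_three (T : TF t d) (S : Subring R) (a b c : G) (ha : t a ∈ S) (hb : t b ∈ S)
    (hc : t c ∈ S) (hab : t (a * b) ∈ S) (hac : t (a * c) ∈ S) (hbc : t (b * c) ∈ S)
    (habc : t (a * b * c) ∈ S) (da : (d a : R) ∈ S) (db : (d b : R) ∈ S) (dc : (d c : R) ∈ S)
    (da' : (((d a)⁻¹ : Rˣ) : R) ∈ S) (db' : (((d b)⁻¹ : Rˣ) : R) ∈ S)
    (dc' : (((d c)⁻¹ : Rˣ) : R) ∈ S) :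
    ∀ g ∈ Subgroup.closure {a, b, c}, t g ∈ S := by
  set M := sp S t a b c with hM
  have m0 : ta t 1 ∈ M := sp_mem S t a b c 0
  have m1 : ta t a ∈ M := sp_mem S t a b c 1
  have m2 : ta t b ∈ M := sp_mem S t a b c 2
  have m3 : ta t c ∈ M := sp_mem S t a b c 3
  have m4 : ta t (a * b) ∈ M := sp_mem S t a b c 4
  have m5 : ta t (a * c) ∈ M := sp_mem S t a b c 5
  have m6 : ta t (b * c) ∈ M := sp_mem S t a b c 6
  have m7 : ta t (a * b * c) ∈ M := sp_mem S t a b c 7
  -- squares
  have aa : ta t (a * a) ∈ M := by
    have := mem_sq (M := M) T ha da 1 1 (by simpa using m1) (by simpa using m0)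
    simpa using this
  have bb : ta t (b * b) ∈ M := by
    have := mem_sq (M := M) T hb db 1 1 (by simpa using m2) (by simpa using m0)
    simpa using this
  have cc : ta t (c * c) ∈ M := by
    have := mem_sq (M := M) T hc dc 1 1 (by simpa using m3) (by simpa using m0)
    simpa using this
  have abb : ta t (a * b * b) ∈ M := by
    have := mem_sq (M := M) T hb db a 1 (by simpa using m4) (by simpa using m1)
    simpa using this
  have acc : ta t (a * c * c) ∈ M := by
    have := mem_sq (M := M) T hc dc a 1 (by simpa using m5) (by simpa using m1)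
    simpa using this
  have bcc : ta t (b * c * c) ∈ M := by
    have := mem_sq (M := M) T hc dc b 1 (by simpa using m6) (by simpa using m2)
    simpa using this
  have abcc : ta t (a * b * c * c) ∈ M := by
    have := mem_sq (M := M) T hc dc (a * b) 1 (by simpa using m7) (by simpa using m4)
    simpa using this
  have aab : ta t (a * a * b) ∈ M := by
    have := mem_sq (M := M) T ha da 1 b (by simpa using m4) (by simpa using m2)
    simpa using this
  have aac : ta t (a * a * c) ∈ M := by
    have := mem_sq (M := M) T ha da 1 c (by simpa using m5) (by simpa using m3)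
    simpa using this
  have aabc : ta t (a * a * b * c) ∈ M := by
    have := mem_sq (M := M) T ha da 1 (b * c) (by simpa [mul_assoc] using m7)
      (by simpa using m6)
    simpa [mul_assoc] using this
  have bbc : ta t (b * b * c) ∈ M := by
    have := mem_sq (M := M) T hb db 1 c (by simpa using m6) (by simpa using m3)
    simpa using this
  have abbc : ta t (a * b * b * c) ∈ M := by
    have := mem_sq (M := M) T hb db a c (by simpa using m7) (by simpa using m5)
    simpa using this
  -- swaps
  have cb : ta t (c * b) ∈ M := by
    have := mem_swap (M := M) T hb hc hbc 1 1 (by simpa using m6) (by simpa using m3)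
      (by simpa using m2) (by simpa using m0)
    simpa using this
  have acb : ta t (a * c * b) ∈ M := by
    have := mem_swap (M := M) T hb hc hbc a 1 (by simpa using m7) (by simpa using m5)
      (by simpa using m4) (by simpa using m1)
    simpa using this
  have bcb : ta t (b * c * b) ∈ M := by
    have := mem_swap (M := M) T hb hc hbc b 1 (by simpa using bbc) (by simpa using m6)
      (by simpa using bb) (by simpa using m2)
    simpa using this
  have abcb : ta t (a * b * c * b) ∈ M := by
    have := mem_swap (M := M) T hb hc hbc (a * b) 1 (by simpa using abbc) (by simpa using m7)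
      (by simpa using abb) (by simpa using m4)
    simpa using this
  have ba : ta t (b * a) ∈ M := by
    have := mem_swap (M := M) T ha hb hab 1 1 (by simpa using m4) (by simpa using m2)
      (by simpa using m1) (by simpa using m0)
    simpa using this
  have ca : ta t (c * a) ∈ M := by
    have := mem_swap (M := M) T ha hc hac 1 1 (by simpa using m5) (by simpa using m3)
      (by simpa using m1) (by simpa using m0)
    simpa using this
  have aba : ta t (a * b * a) ∈ M := by
    have := mem_swap (M := M) T ha hb hab a 1 (by simpa using aab) (by simpa using m4)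
      (by simpa using aa) (by simpa using m1)
    simpa using this
  have aca : ta t (a * c * a) ∈ M := by
    have := mem_swap (M := M) T ha hc hac a 1 (by simpa using aac) (by simpa using m5)
      (by simpa using aa) (by simpa using m1)
    simpa using this
  have bac : ta t (b * a * c) ∈ M := by
    have := mem_swap (M := M) T ha hb hab 1 c (by simpa using m7) (by simpa using m6)
      (by simpa using m5) (by simpa using m3)
    simpa using this
  have bca : ta t (b * c * a) ∈ M := by
    have := mem_swap (M := M) T ha hc hac b 1 (by simpa using bac) (by simpa using m6)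
      (by simpa using ba) (by simpa using m2)
    simpa using this
  have abac : ta t (a * b * a * c) ∈ M := by
    have := mem_swap (M := M) T ha hb hab a c (by simpa using aabc) (by simpa using m7)
      (by simpa using aac) (by simpa using m5)
    simpa using this
  have abca : ta t (a * b * c * a) ∈ M := by
    have := mem_swap (M := M) T ha hc hac (a * b) 1 (by simpa using abac) (by simpa using m7)
      (by simpa using aba) (by simpa using m4)
    simpa using this
  have pa : M ≤ M.comap (rt S a) := by
    refine sp_le fun i => ?_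
    fin_cases i
    · simpa [e8] using m1
    · exact aa
    · exact ba
    · exact ca
    · exact aba
    · exact aca
    · exact bca
    · exact abca
  have pb : M ≤ M.comap (rt S b) := by
    refine sp_le fun i => ?_
    fin_cases i
    · simpa [e8] using m2
    · exact m4
    · exact bb
    · exact cb
    · exact abb
    · exact acb
    · exact bcb
    · exact abcb
  have pc : M ≤ M.comap (rt S c) := by
    refine sp_le fun i => ?_
    fin_cases i
    · simpa [e8] using m3
    · exact m5
    · exact m6
    · exact cc
    · exact m7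
    · exact acc
    · exact bcc
    · exact abcc
  have key : ∀ g ∈ Subgroup.closure {a, b, c}, M ≤ M.comap (rt S g) := by
    intro g hg
    induction hg using Subgroup.closure_induction'' with
    | mem x hx =>
      rcases hx with rfl | rfl | rfl
      exacts [pa, pb, pc]
    | inv_mem x hx =>
      rcases hx with rfl | rfl | rfl
      exacts [inv_le T ha da' pa, inv_le T hb db' pb, inv_le T hc dc' pc]
    | one =>
      intro f hf
      change (fun k => f (1 * k)) ∈ M
      simpa using hf
    | mul x y _ _ hx hy =>
      intro f hf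
      have h1 := hy (hx hf)
      change (fun k => f (x * (y * k))) ∈ M at h1
      change (fun k => f (x * y * k)) ∈ M
      simpa only [mul_assoc] using h1
  have hev : ∀ f ∈ M, f 1 ∈ S := by
    intro f hf
    induction hf using Submodule.span_induction with
    | mem f hf =>
      obtain ⟨i, rfl⟩ := hf
      change t (e8 a b c i * 1) ∈ S
      rw [mul_one]
      fin_cases i
      · change t 1 ∈ S
        rw [T.one]
        exact_mod_cast natCast_mem S 2
      all_goals assumption
    | zero => exact S.zero_mem
    | add f g _ _ hf hg => exact S.add_mem hf hg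
    | smul s f _ hf => exact S.mul_mem s.2 hf
  intro g hg
  have h1 := hev _ (key g hg m0)
  change t (1 * (g * 1)) ∈ S at h1
  simpa using h1

end

end Vale.Agent.P022.H346
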