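import Vale.Agent.P022.H346.FAlg

/-!
P022-L3, chapter F: sources of trace functions and the product form of `mem_three`.
-/

namespace Vale.Agent.P022.H346

namespace TF

section

variable {G R : Type*} [Group G] [CommRing R]

/-- image under a ring homomorphism -/
theorem map {S : Type*} [CommRing S] {t : G → R} {d : G →* Rˣ} (T : TF t d) (f : R →+* S) :
    TF (fun g => f (t g)) ((Units.map (f : R →* S)).comp d) where
  one := by rw [T.one, map_ofNat]
  comm g h := by rw [T.comm]
  mul g h := by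
    rw [← map_mul, T.mul, map_add, map_mul]
    rfl

/-- composition with a group homomorphism -/
theorem comp {H : Type*} [Group H] {t : G → R} {d : G →* Rˣ} (T : TF t d) (f : H →* G) :
    TF (fun g => t (f g)) (d.comp f) where
  one := by rw [map_one, T.one]
  comm g h := by rw [map_mul, map_mul, T.comm]
  mul g h := by
    rw [map_mul, map_mul, map_inv]
    exact T.mul _ _

/-- trace functions from operators: `ρ g + d g • ρ g⁻¹ = t g` -/
theorem ofOp {A : Type*} [Ring A] [Algebra R A] (hinj : Function.Injective (algebraMap R A))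
    (ρ : G →* A) (t : G → R) (d : G →* Rˣ)
    (h : ∀ g, algebraMap R A (t g) = ρ g + (d g : R) • ρ g⁻¹) : TF t d where
  one := by
    apply hinj
    rw [h, map_one, inv_one, map_one, map_one, Units.val_one, one_smul, map_ofNat]
    norm_num
  comm g k := by
    apply hinj
    have h1 : algebraMap R A (t (g * k)) = ρ k * algebraMap R A (t (g * k)) * ρ k⁻¹ := by
      rw [← Algebra.commutes, mul_assoc, ← map_mul, mul_inv_cancel, map_one, mul_one]
    rw [h1, h, h, mul_add, add_mul, mul_smul_comm, smul_mul_assoc, map_mul, map_mul, map_mul,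
      mul_inv_rev, mul_inv_rev, map_mul, map_mul, mul_comm (d g)]
    congr 1
    · rw [mul_assoc, mul_assoc, ← map_mul ρ k k⁻¹, mul_inv_cancel, map_one, mul_one]
    · rw [← mul_assoc (ρ k), ← map_mul ρ k k⁻¹, mul_inv_cancel, map_one, one_mul, ← map_mul ρ g⁻¹]
  mul g k := by
    apply hinj
    have hk := h k
    have e1 : ρ g * ρ k⁻¹ = ρ (g * k⁻¹) := (map_mul _ _ _).symm
    have e2 : algebraMap R A (t g) * algebraMap R A (t k) =
        ρ g * algebraMap R A (t k) + (d g : R) • (algebraMap R A (t k) * ρ g⁻¹) := by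
      rw [h g, add_mul, smul_mul_assoc, ← Algebra.commutes (t k) (ρ g⁻¹)]
    rw [map_mul, e2, map_add, map_mul, h (g * k), h (g * k⁻¹), hk, mul_add, add_mul,
      mul_smul_comm, smul_mul_assoc, ← map_mul, e1, ← map_mul, ← map_mul, smul_add,
      Algebra.algebraMap_eq_smul_one, smul_mul_assoc, one_mul, smul_add, smul_smul, smul_smul,
      mul_inv_rev, mul_inv_rev, inv_inv, map_mul d, map_mul d, map_inv, Units.val_mul,
      Units.val_mul]
    have e3 : (d k : R) * ((d g : R) * ((d k)⁻¹ : Rˣ)) = d g := by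
      rw [mul_comm, mul_assoc, Units.inv_mul, mul_one]
    rw [e3]
    abel

/-- trace and determinant of a two-dimensional representation -/
theorem ofGL (r : G →* GL (Fin 2) R) :
    TF (fun g => (r g : Matrix (Fin 2) (Fin 2) R).trace)
      ((Matrix.GeneralLinearGroup.det).comp r) := by
  have hinj : Function.Injective (algebraMap R (Matrix (Fin 2) (Fin 2) R)) := by
    intro x y hxy
    have := congrFun (congrFun hxy 0) 0
    simpa [Matrix.algebraMap_matrix_apply] using this
  refine ofOp (A := Matrix (Fin 2) (Fin 2) R) hinj ((Units.coeHom _).comp r) _ _ fun g => ?_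
  have h1 : ((Matrix.GeneralLinearGroup.det (r g) : Rˣ) : R) •
      ((r g⁻¹ : GL (Fin 2) R) : Matrix (Fin 2) (Fin 2) R) =
        (r g : Matrix (Fin 2) (Fin 2) R).adjugate := by
    rw [map_inv, Matrix.coe_units_inv, Matrix.inv_def, smul_smul]
    have : ((Matrix.GeneralLinearGroup.det (r g) : Rˣ) : R) *
        Ring.inverse (r g : Matrix (Fin 2) (Fin 2) R).det = 1 := by
      refine Ring.mul_inverse_cancel _ ?_
      exact (Matrix.isUnit_iff_isUnit_det _).1 (r g).isUnit
    rw [this, one_smul]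
  change algebraMap R (Matrix (Fin 2) (Fin 2) R) (r g : Matrix (Fin 2) (Fin 2) R).trace =
    (r g : Matrix (Fin 2) (Fin 2) R) + ((Matrix.GeneralLinearGroup.det (r g) : Rˣ) : R) •
      ((r g⁻¹ : GL (Fin 2) R) : Matrix (Fin 2) (Fin 2) R)
  rw [h1, Matrix.adjugate_fin_two, Matrix.trace_fin_two]
  ext i j
  fin_cases i <;> fin_cases j <;> simp [Matrix.algebraMap_matrix_apply] <;> ring

/-- where the operators agree the traces agree -/
theorem eq_of_op {A : Type*} [Ring A] [Algebra R A] (hinj : Function.Injective (algebraMap R A))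
    (ρ : G →* A) (t : G → R) (d : G →* Rˣ)
    (h : ∀ g, algebraMap R A (t g) = ρ g + (d g : R) • ρ g⁻¹) {g k : G} (hρ : ρ g = ρ k)
    (hd : d g = d k) : t g = t k := by
  apply hinj
  have h1 : ρ g⁻¹ = ρ k⁻¹ := by
    have e1 : ρ g⁻¹ * ρ k = 1 := by rw [← hρ, ← map_mul, inv_mul_cancel, map_one]
    calc ρ g⁻¹ = ρ g⁻¹ * (ρ k * ρ k⁻¹) := by rw [← map_mul, mul_inv_cancel, map_one, mul_one]
      _ = ρ k⁻¹ := by rw [← mul_assoc, e1, one_mul]
  rw [h, h, h1, hρ, hd]

/-- translation by the kernel -/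
theorem const_on {t : G → R} {d : G →* Rˣ} {A : Type*} [Ring A] [Algebra R A]
    (hinj : Function.Injective (algebraMap R A)) (ρ : G →* A)
    (h : ∀ g, algebraMap R A (t g) = ρ g + (d g : R) • ρ g⁻¹) {u : G} (hρ : ρ u = 1)
    (hd : d u = 1) (g : G) : t (g * u) = t g :=
  eq_of_op hinj ρ t d h (by rw [map_mul, hρ, mul_one]) (by rw [map_mul, hd, mul_one])

end

section

variable {G : Type*} [Group G] {I : Type*} {R : I → Type*} [∀ i, CommRing (R i)]

/-- the product of a family of homomorphisms to unit groups -/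
def dpi (d : ∀ i, G →* (R i)ˣ) : G →* (∀ i, R i)ˣ where
  toFun g := ⟨fun i => (d i g : R i), fun i => ((d i g)⁻¹ : (R i)ˣ),
    funext fun i => Units.mul_inv _, funext fun i => Units.inv_mul _⟩
  map_one' := by
    ext i
    simp
  map_mul' g h := by
    ext i
    simp

theorem dpi_val (d : ∀ i, G →* (R i)ˣ) (g : G) (i : I) :
    ((dpi d g : (∀ i, R i)ˣ) : ∀ i, R i) i = d i g := rfl

theorem dpi_inv (d : ∀ i, G →* (R i)ˣ) (g : G) (i : I) :
    (((dpi d g)⁻¹ : (∀ i, R i)ˣ) : ∀ i, R i) i = ((d i g)⁻¹ : (R i)ˣ) := rfl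

/-- the product of a family of trace functions -/
theorem pi {t : ∀ i, G → R i} {d : ∀ i, G →* (R i)ˣ} (T : ∀ i, TF (t i) (d i)) :
    TF (fun g i => t i g) (dpi d) where
  one := funext fun i => (T i).one
  comm g h := funext fun i => (T i).comm g h
  mul g h := funext fun i => (T i).mul g h

end

end TF

section

variable {G : Type*} [Group G] {I : Type*} {R : I → Type*} [∀ i, CommRing (R i)]

/-- the seven traces, the three determinants and their inverses -/
def letters {S : Type*} [CommRing S] (t : G → S) (d : G →* Sˣ) (a b c : G) : Fin 13 → S :=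
  ![t a, t b, t c, t (a * b), t (a * c), t (b * c), t (a * b * c), d a, d b, d c,
    ((d a)⁻¹ : Sˣ), ((d b)⁻¹ : Sˣ), ((d c)⁻¹ : Sˣ)]

open MvPolynomial

theorem mem_range_aeval {S : Type*} [CommRing S] (l : Fin 13 → S) {s : S}
    (hs : s ∈ Subring.closure (Set.range l)) :
    ∃ Φ : MvPolynomial (Fin 13) ℤ, s = eval₂ (Int.castRingHom S) l Φ := by
  have h1 : Subring.closure (Set.range l) ≤ (eval₂Hom (Int.castRingHom S) l).range := by
    refine Subring.closure_le.2 ?_
    rintro _ ⟨i, rfl⟩
    exact ⟨X i, eval₂Hom_X' _ _ _⟩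
  obtain ⟨Φ, hΦ⟩ := h1 hs
  exact ⟨Φ, hΦ.symm⟩

/-- **one polynomial for a whole family of trace functions** -/
theorem exists_poly {t : ∀ i, G → R i} {d : ∀ i, G →* (R i)ˣ} (T : ∀ i, TF (t i) (d i))
    (a b c g : G) (hg : g ∈ Subgroup.closure {a, b, c}) :
    ∃ Φ : MvPolynomial (Fin 13) ℤ, ∀ i,
      t i g = eval₂ (Int.castRingHom (R i)) (letters (t i) (d i) a b c) Φ := by
  set t' : G → ∀ i, R i := fun g i => t i g with ht'
  set d' : G →* (∀ i, R i)ˣ := TF.dpi d with hd'
  have T' : TF t' d' := TF.pi T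
  set L := letters t' d' a b c with hL
  have hm : ∀ j, L j ∈ Subring.closure (Set.range L) := fun j => Subring.subset_closure ⟨j, rfl⟩
  have h1 := mem_three T' (Subring.closure (Set.range L)) a b c (hm 0) (hm 1) (hm 2) (hm 3)
    (hm 4) (hm 5) (hm 6) (hm 7) (hm 8) (hm 9) (hm 10) (hm 11) (hm 12) g hg
  obtain ⟨Φ, hΦ⟩ := mem_range_aeval L h1
  refine ⟨Φ, fun i => ?_⟩
  have h2 : t i g = (Pi.evalRingHom R i) (t' g) := rfl
  rw [h2, hΦ]
  rw [MvPolynomial.eval₂_comp_left]
  have e : (Pi.evalRingHom R i).comp (Int.castRingHom (∀ i, R i)) = Int.castRingHom (R i) :=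
    RingHom.ext_int _ _
  rw [e]
  congr 1
  funext j
  fin_cases j <;> rfl

end

end Vale.Agent.P022.H346
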